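import Vale.Agent.Lib.P195.Cyclic

universe u

open CategoryTheory Abelian in
/-- Over a commutative Artinian ring `R`, a module `M` that is isomorphic to a finite direct
product of cyclic modules `R ⧸ I j` and satisfies `Ext^1_R(M, M) = 0` is projective. -/
theorem Vale.Agent.Results.P195.SumOfCyclics.result :
    ∀ (R : Type u) [CommRing R] [IsArtinianRing R] (m : ℕ) (I : Fin m → Ideal R)
      (M : ModuleCat.{u} R), (M ≃ₗ[R] ((j : Fin m) → R ⧸ I j)) →
      Subsingleton (Ext M M 1) → Module.Projective R M :=
  fun _ _ _ m I M e h => Vale.Agent.Lib.P195.projective_of_equiv_pi_quot m I M e h
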