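import Vale.Agent.Lib.P195.Cyclic

universe u

open CategoryTheory Abelian Vale.Agent.Lib.P195 in
/-- Over a commutative Artinian ring `R`, let `M` be a module having an `n`-th syzygy (with
respect to a partial resolution by finitely generated projective modules) that is a finite
direct product of cyclic modules. If `Ext^i_R(M, M) = 0` and `Ext^i_R(M, R) = 0` for all
`1 ≤ i ≤ n + 1`, then `M` is projective. -/
theorem Vale.Agent.Results.P195.SyzygyCyclic.result :
    ∀ (R : Type u) [CommRing R] [IsArtinianRing R] (n : ℕ) (M : ModuleCat.{u} R),
      CyclicSyzygy R n M →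
      (∀ i : ℕ, 1 ≤ i → i ≤ n + 1 →
        Subsingleton (Ext M M i) ∧ Subsingleton (Ext M (ModuleCat.of R R) i)) →
      Module.Projective R M :=
  fun _ _ _ n M h hM => projective_of_cyclicSyzygy n M h hM
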